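import Vale.Agent.P167.H871.Fair

/-!
# P167, block D3: the BK inequality for fair coins (counting form) and its iteration
-/

namespace Vale.Agent.P167.H166

open Finset MeasureTheory Vale.Agent.P167.H871

section
variable {ι : Type*} [DecidableEq ι]

open Classical in
/-- Number of subsets with a property. -/
noncomputable def N1 (E : Finset ι) (Q : Finset ι → Prop) : ℕ :=
  ∑ S ∈ E.powerset, if Q S then 1 else 0

/-- Number of pairs of subsets with a property. -/
noncomputable def N2 (E : Finset ι) (Q : Finset ι → Finset ι → Prop) : ℕ :=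
  ∑ S ∈ E.powerset, N1 E (Q S)

theorem N1_mono {E : Finset ι} {Q R : Finset ι → Prop} (h : ∀ S, Q S → R S) : N1 E Q ≤ N1 E R := by
  classical
  refine Finset.sum_le_sum fun S _ => ?_
  by_cases h1 : Q S
  · simp [h1, h S h1]
  · simp [h1]

theorem N1_congr {E : Finset ι} {Q R : Finset ι → Prop} (h : ∀ S ⊆ E, Q S ↔ R S) :
    N1 E Q = N1 E R := by
  classical
  refine Finset.sum_congr rfl fun S hS => ?_
  simp [h S (Finset.mem_powerset.1 hS)]

theorem N2_mono {E : Finset ι} {Q R : Finset ι → Finset ι → Prop} (h : ∀ S T, Q S T → R S T) :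
    N2 E Q ≤ N2 E R :=
  Finset.sum_le_sum fun S _ => N1_mono (h S)

theorem N1_insert {E : Finset ι} {e : ι} (he : e ∉ E) (Q : Finset ι → Prop) :
    N1 (insert e E) Q = N1 E (fun S => Q (insert e S)) + N1 E Q := by
  classical
  unfold N1
  rw [Finset.sum_powerset_insert he, add_comm]

theorem N1_or_and (E : Finset ι) (Q R : Finset ι → Prop) :
    N1 E (fun S => Q S ∨ R S) + N1 E (fun S => Q S ∧ R S) = N1 E Q + N1 E R := by
  classical
  unfold N1
  rw [← Finset.sum_add_distrib, ← Finset.sum_add_distrib]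
  refine Finset.sum_congr rfl fun S _ => ?_
  by_cases h1 : Q S <;> by_cases h2 : R S <;> simp [h1, h2]

theorem N2_or_and (E : Finset ι) (Q R : Finset ι → Finset ι → Prop) :
    N2 E (fun S T => Q S T ∨ R S T) + N2 E (fun S T => Q S T ∧ R S T) = N2 E Q + N2 E R := by
  unfold N2
  rw [← Finset.sum_add_distrib, ← Finset.sum_add_distrib]
  exact Finset.sum_congr rfl fun S _ => N1_or_and E (Q S) (R S)

theorem N2_insert {E : Finset ι} {e : ι} (he : e ∉ E) (Q : Finset ι → Finset ι → Prop) :
    N2 (insert e E) Q = N2 E (fun S T => Q (insert e S) (insert e T)) +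
      N2 E (fun S T => Q (insert e S) T) + (N2 E (fun S T => Q S (insert e T)) + N2 E Q) := by
  unfold N2
  rw [Finset.sum_powerset_insert he]
  simp only [N1_insert he, Finset.sum_add_distrib]
  ring

/-- Two-witness properties which hold on disjoint witnesses. -/
def DQ (Q : Finset ι → Finset ι → Prop) (S : Finset ι) : Prop :=
  ∃ I J : Finset ι, I ⊆ S ∧ J ⊆ S ∧ Disjoint I J ∧ Q I J

theorem DQ_insert {Q : Finset ι → Finset ι → Prop}
    (hQ : ∀ I I' J J' : Finset ι, I ⊆ I' → J ⊆ J' → Q I J → Q I' J') {e : ι} {S : Finset ι}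
    (he : e ∉ S) (h : DQ Q (insert e S)) :
    DQ (fun I J => Q (insert e I) J ∨ Q I (insert e J)) S := by
  obtain ⟨I, J, hI, hJ, hd, h⟩ := h
  have hI' : I.erase e ⊆ S := fun x hx => by
    rcases mem_insert.1 (hI (mem_of_mem_erase hx)) with h' | h'
    · exact absurd h' (ne_of_mem_erase hx)
    · exact h'
  have hJ' : J.erase e ⊆ S := fun x hx => by
    rcases mem_insert.1 (hJ (mem_of_mem_erase hx)) with h' | h'
    · exact absurd h' (ne_of_mem_erase hx)
    · exact h'
  refine ⟨I.erase e, J.erase e, hI', hJ',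
    disjoint_of_subset_left (erase_subset _ _) (disjoint_of_subset_right (erase_subset _ _) hd), ?_⟩
  by_cases heI : e ∈ I
  · left
    have heJ : e ∉ J := disjoint_left.1 hd heI
    rw [insert_erase heI, erase_eq_of_notMem heJ]
    exact h
  · right
    rw [erase_eq_of_notMem heI]
    exact hQ I I J _ (Subset.refl I) (fun x hx => by
      by_cases hxe : x = e
      · rw [hxe]; exact mem_insert_self _ _
      · exact mem_insert_of_mem (mem_erase.2 ⟨hxe, hx⟩)) h

/-- The BK inequality, counting form. -/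
theorem bk (E : Finset ι) (Q : Finset ι → Finset ι → Prop)
    (hQ : ∀ I I' J J' : Finset ι, I ⊆ I' → J ⊆ J' → Q I J → Q I' J') :
    N1 E (DQ Q) * 2 ^ E.card ≤ N2 E Q := by
  classical
  induction E using Finset.induction_on generalizing Q with
  | empty =>
    simp only [N1, N2, powerset_empty, sum_singleton, card_empty, pow_zero, mul_one]
    by_cases h : DQ Q ∅
    · obtain ⟨I, J, hI, hJ, -, h1⟩ := id h
      rw [subset_empty.1 hI, subset_empty.1 hJ] at h1
      simp [h, h1]
    · simp [h]
  | insert e E he ih =>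
    have hL : N1 (insert e E) (DQ Q) ≤
        N1 E (DQ (fun I J => Q (insert e I) J ∨ Q I (insert e J))) + N1 E (DQ Q) := by
      rw [N1_insert he]
      refine Nat.add_le_add_right ?_ _
      refine Finset.sum_le_sum fun S hS => ?_
      by_cases h1 : DQ Q (insert e S)
      · have h2 := DQ_insert hQ (fun h => he (Finset.mem_powerset.1 hS h)) h1
        simp [h1, h2]
      · simp [h1]
    have i1 := ih (fun I J => Q (insert e I) J ∨ Q I (insert e J)) (by
      rintro I I' J J' hI hJ (h | h)
      · exact Or.inl (hQ _ _ _ _ (insert_subset_insert e hI) hJ h)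
      · exact Or.inr (hQ _ _ _ _ hI (insert_subset_insert e hJ) h))
    have i0 := ih Q hQ
    have hs := N2_or_and E (fun I J => Q (insert e I) J) (fun I J => Q I (insert e J))
    have h12 : N2 E (fun I J => Q (insert e I) J ∨ Q I (insert e J)) ≤
        N2 E (fun I J => Q (insert e I) (insert e J)) := by
      refine N2_mono fun I J h => ?_
      rcases h with h | h
      · exact hQ _ _ _ _ (Subset.refl _) (subset_insert _ _) h
      · exact hQ _ _ _ _ (subset_insert _ _) (Subset.refl _) h
    have h00 : N2 E Q ≤ N2 E (fun I J => Q (insert e I) J ∧ Q I (insert e J)) :=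
      N2_mono fun I J h => ⟨hQ _ _ _ _ (subset_insert _ _) (Subset.refl _) h,
        hQ _ _ _ _ (Subset.refl _) (subset_insert _ _) h⟩
    rw [N2_insert he, Finset.card_insert_of_notMem he, pow_succ]
    calc N1 (insert e E) (DQ Q) * (2 ^ E.card * 2)
        ≤ (N1 E (DQ (fun I J => Q (insert e I) J ∨ Q I (insert e J))) + N1 E (DQ Q)) *
          (2 ^ E.card * 2) := Nat.mul_le_mul_right _ hL
      _ = 2 * (N1 E (DQ (fun I J => Q (insert e I) J ∨ Q I (insert e J))) * 2 ^ E.card) +
          2 * (N1 E (DQ Q) * 2 ^ E.card) := by ring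
      _ ≤ 2 * N2 E (fun I J => Q (insert e I) J ∨ Q I (insert e J)) + 2 * N2 E Q := by
          gcongr
      _ ≤ _ := by
          omega

/-- `A` holds on `j` pairwise disjoint witnesses. -/
def Dj (A : Finset ι → Prop) : ℕ → Finset ι → Prop
  | 0, _ => True
  | j + 1, S => DQ (fun I J => A I ∧ Dj A j J) S

theorem Dj_mono {A : Finset ι → Prop} (hA : ∀ S T : Finset ι, S ⊆ T → A S → A T) (j : ℕ) :
    ∀ S T : Finset ι, S ⊆ T → Dj A j S → Dj A j T := by
  induction j with
  | zero => intro S T _ _; trivial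
  | succ j ih =>
    rintro S T h ⟨I, J, h1, h2, h3⟩
    exact ⟨I, J, h1.trans h, h2.trans h, h3⟩

theorem N1_le {E : Finset ι} (Q : Finset ι → Prop) : N1 E Q ≤ 2 ^ E.card := by
  classical
  unfold N1
  calc _ ≤ ∑ _S ∈ E.powerset, 1 := Finset.sum_le_sum fun S _ => by split_ifs <;> simp
    _ = _ := by simp

theorem N2_and (E : Finset ι) (A B : Finset ι → Prop) :
    N2 E (fun I J => A I ∧ B J) = N1 E A * N1 E B := by
  classical
  unfold N2 N1
  rw [Finset.sum_mul]
  refine Finset.sum_congr rfl fun S _ => ?_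
  by_cases h : A S
  · simp [h]
  · simp [h]

/-- Iterated BK inequality. -/
theorem bk_pow {A : Finset ι → Prop} (hA : ∀ S T : Finset ι, S ⊆ T → A S → A T) (E : Finset ι)
    (j : ℕ) : (N1 E (Dj A j) : ℝ) / 2 ^ E.card ≤ ((N1 E A : ℝ) / 2 ^ E.card) ^ j := by
  induction j with
  | zero =>
    rw [pow_zero, div_le_one (by positivity)]
    exact_mod_cast N1_le _
  | succ j ih =>
    have h := bk E (fun I J => A I ∧ Dj A j J)
      (fun I I' J J' hI hJ h => ⟨hA I I' hI h.1, Dj_mono hA j J J' hJ h.2⟩)
    rw [N2_and] at h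
    have h' : (N1 E (Dj A (j + 1)) : ℝ) * 2 ^ E.card ≤ N1 E A * N1 E (Dj A j) := by exact_mod_cast h
    have h2 : (0 : ℝ) < 2 ^ E.card := by positivity
    calc (N1 E (Dj A (j + 1)) : ℝ) / 2 ^ E.card
        = N1 E (Dj A (j + 1)) * 2 ^ E.card / (2 ^ E.card * 2 ^ E.card) := by field_simp
      _ ≤ N1 E A * N1 E (Dj A j) / (2 ^ E.card * 2 ^ E.card) := by gcongr
      _ = (N1 E A / 2 ^ E.card) * (N1 E (Dj A j) / 2 ^ E.card) := by field_simp
      _ ≤ (N1 E A / 2 ^ E.card) * ((N1 E A : ℝ) / 2 ^ E.card) ^ j := by gcongr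
      _ = _ := by ring

end

/-! ### Fair coins -/

theorem filt_eq {E : Finset Pt} {b : Bool} {o : Mk} {S : Finset Pt} (hS : S ⊆ E) :
    E.filter (fun w => o w = b) = S ↔ ∀ w ∈ E, o w = (if w ∈ S then b else !b) := by
  constructor
  · rintro rfl w hw
    by_cases h : o w = b
    · simp [h, hw]
    · cases b <;> simp_all
  · intro h
    ext w
    rw [Finset.mem_filter]
    constructor
    · rintro ⟨h1, h2⟩
      by_contra h3
      have := h w h1
      rw [if_neg h3, h2] at this
      cases b <;> simp at this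
    · intro h1
      have := h w (hS h1)
      rw [if_pos h1] at this
      exact ⟨hS h1, this⟩

/-- Counting formula for events which depend on the set of the open (`b = true`) or closed
(`b = false`) squares of a finite set. -/
theorem real_filt {mu : Measure Mk} (hm : Fair mu) (E : Finset Pt) (b : Bool)
    (Q : Finset Pt → Prop) :
    mu.real {o | Q (E.filter (fun w => o w = b))} = N1 E Q / 2 ^ E.card := by
  classical
  haveI := hm.prob
  have e : {o : Mk | Q (E.filter (fun w => o w = b))} =
      ⋃ S ∈ E.powerset.filter Q, {o : Mk | ∀ w ∈ E, o w = (if w ∈ S then b else !b)} := by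
    ext o
    simp only [Set.mem_ofPred_eq, Set.mem_iUnion, exists_prop, Finset.mem_filter,
      Finset.mem_powerset]
    constructor
    · intro h
      refine ⟨_, ⟨Finset.filter_subset _ _, h⟩, ?_⟩
      exact (filt_eq (Finset.filter_subset _ _)).1 rfl
    · rintro ⟨S, ⟨h1, h2⟩, h3⟩
      rwa [(filt_eq h1).2 h3]
  rw [e, measureReal_biUnion_finset]
  · rw [Finset.sum_congr rfl (fun S _ => hm.cyl E (fun w => if w ∈ S then b else !b))]
    rw [Finset.sum_const, nsmul_eq_mul, N1, Finset.sum_ite]
    simp [div_eq_mul_inv]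
  · intro S hS T hT hne
    rw [Function.onFun, Set.disjoint_left]
    intro o ho ho'
    apply hne
    have h1 := (filt_eq (Finset.mem_powerset.1 (Finset.mem_filter.1 hS).1)).2 ho
    have h2 := (filt_eq (Finset.mem_powerset.1 (Finset.mem_filter.1 hT).1)).2 ho'
    rw [← h1, ← h2]
  · intro S _
    exact meas_cyl E _

/-- Iterated BK inequality for fair coins. -/
theorem real_pow {mu : Measure Mk} (hm : Fair mu) (E : Finset Pt) (b : Bool)
    {A : Finset Pt → Prop} (hA : ∀ S T : Finset Pt, S ⊆ T → A S → A T) (j : ℕ) :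
    mu.real {o | Dj A j (E.filter (fun w => o w = b))} ≤
      (mu.real {o | A (E.filter (fun w => o w = b))}) ^ j := by
  rw [real_filt hm, real_filt hm]
  exact bk_pow hA E j

end Vale.Agent.P167.H166
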