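import Vale.Agent.P167.Iface
import Vale.Agent.P167.H166.Bk

/-!
# P167, block D3: crossing loops and crossing clusters of a box (deterministic part)
-/

namespace Vale.Agent.P167.H166

open Finset MeasureTheory
open Vale.Agent.P145.FB (PStep)

/-- The sites joined to `s` by open steps of `F`. -/
def cl (F : Set (ℤ × ℤ)) (s : ℤ × ℤ) : Set (ℤ × ℤ) := {t | Relation.ReflTransGen (PStep F) s t}

/-- The clusters of parity `e` which cross the annulus. -/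
def CC (x : ℤ × ℤ) (r R e : ℤ) (F : Set (ℤ × ℤ)) : Set (Set (ℤ × ℤ)) :=
  {C | ∃ s, (s.1 + s.2) % 2 = e ∧ nm (s - x) ≤ r + 1 ∧ C = cl F s ∧ ∃ t ∈ C, R - 1 ≤ nm (t - x)}

/-- There is a crossing of parity `e`. -/
def Cr (x : ℤ × ℤ) (r R e : ℤ) (S : Finset (ℤ × ℤ)) : Prop :=
  ∃ s t, (s.1 + s.2) % 2 = e ∧ nm (s - x) ≤ r + 1 ∧ R - 1 ≤ nm (t - x) ∧
    Relation.ReflTransGen (PStep (S : Set (ℤ × ℤ))) s t

theorem PStep_mono {F F' : Set (ℤ × ℤ)} (h : F ⊆ F') {s t : ℤ × ℤ} (hs : PStep F s t) :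
    PStep F' s t := ⟨hs.1, hs.2.1, h hs.2.2⟩

theorem rtg_mono {F F' : Set (ℤ × ℤ)} (h : F ⊆ F') {s t : ℤ × ℤ}
    (hs : Relation.ReflTransGen (PStep F) s t) : Relation.ReflTransGen (PStep F') s t := by
  induction hs with
  | refl => exact Relation.ReflTransGen.refl
  | tail _ hs ih => exact ih.tail (PStep_mono h hs)

theorem Cr_mono {x : ℤ × ℤ} {r R e : ℤ} : ∀ S T : Finset (ℤ × ℤ), S ⊆ T → Cr x r R e S →
    Cr x r R e T := by
  rintro S T h ⟨s, t, h1, h2, h3, h4⟩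
  exact ⟨s, t, h1, h2, h3, rtg_mono (by exact_mod_cast h) h4⟩

theorem cl_eq {F : Set (ℤ × ℤ)} {s t : ℤ × ℤ} (h : t ∈ cl F s) : cl F t = cl F s := by
  have hsym : ∀ {a b : ℤ × ℤ}, Relation.ReflTransGen (PStep F) a b →
      Relation.ReflTransGen (PStep F) b a := by
    intro a b hab
    induction hab with
    | refl => exact Relation.ReflTransGen.refl
    | tail _ h2 ih => exact Relation.ReflTransGen.head h2.symm ih
  ext u
  exact ⟨fun hu => h.trans hu, fun hu => (hsym h).trans hu⟩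

theorem cl_parity {F : Set (ℤ × ℤ)} {s t : ℤ × ℤ} (h : t ∈ cl F s) :
    (t.1 + t.2) % 2 = (s.1 + s.2) % 2 := by
  induction h with
  | refl => rfl
  | @tail a b _ h2 ih =>
    obtain ⟨h3, h4, -⟩ := h2
    omega

theorem box_finite (x : ℤ × ℤ) (r : ℤ) : {s : ℤ × ℤ | nm (s - x) ≤ r}.Finite := by
  refine ((Finset.Icc (x.1 - r) (x.1 + r)) ×ˢ (Finset.Icc (x.2 - r) (x.2 + r))).finite_toSet.subset ?_
  intro s hs
  simp only [Set.mem_ofPred_eq, nm, Prod.fst_sub, Prod.snd_sub, max_le_iff, abs_le] at hs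
  simp only [Finset.coe_product, Finset.coe_Icc, Set.mem_prod, Set.mem_Icc]
  omega

theorem CC_finite (x : ℤ × ℤ) (r R e : ℤ) (F : Set (ℤ × ℤ)) : (CC x r R e F).Finite := by
  refine ((box_finite x (r + 1)).image (cl F)).subset ?_
  rintro C ⟨s, -, h2, h3, -⟩
  exact ⟨s, h2, h3.symm⟩

open Classical in
/-- The squares of `S` with a corner in `C`. -/
noncomputable def sq (S : Finset (ℤ × ℤ)) (C : Set (ℤ × ℤ)) : Finset (ℤ × ℤ) :=
  S.filter (fun v => ∃ u w, PStep {v} u w ∧ u ∈ C)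

theorem sq_disj {x : ℤ × ℤ} {r R e : ℤ} {S : Finset (ℤ × ℤ)} {C C' : Set (ℤ × ℤ)}
    (hC : C ∈ CC x r R e S) (hC' : C' ∈ CC x r R e S) (hne : C ≠ C') :
    Disjoint (sq S C) (sq S C') := by
  classical
  rw [Finset.disjoint_left]
  intro v hv hv'
  unfold sq at hv hv'
  rw [Finset.mem_filter] at hv hv'
  obtain ⟨hvS, u, w, hu, huC⟩ := hv
  obtain ⟨-, u', w', hu', huC'⟩ := hv'
  obtain ⟨s, hs, -, rfl, -⟩ := hC
  obtain ⟨s', hs', -, rfl, -⟩ := hC'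
  apply hne
  have p1 := cl_parity huC
  have p2 := cl_parity huC'
  have hstep : PStep (S : Set (ℤ × ℤ)) u w :=
    PStep_mono (Set.singleton_subset_iff.2 (by exact_mod_cast hvS)) hu
  obtain ⟨a1, a2, a3⟩ := hu
  obtain ⟨b1, b2, b3⟩ := hu'
  rw [Set.mem_singleton_iff] at a3 b3
  have c1 : min u.1 w.1 = v.1 := by rw [← a3]
  have c2 : min u.2 w.2 = v.2 := by rw [← a3]
  have d1 : min u'.1 w'.1 = v.1 := by rw [← b3]
  have d2 : min u'.2 w'.2 = v.2 := by rw [← b3]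
  have : u' = u ∨ u' = w := by
    rw [Prod.ext_iff, Prod.ext_iff]
    omega
  have h2 : u' ∈ cl (S : Set (ℤ × ℤ)) s := by
    rcases this with rfl | rfl
    · exact huC
    · exact Relation.ReflTransGen.tail huC hstep
  rw [← cl_eq h2, cl_eq huC']

theorem sq_cross {x : ℤ × ℤ} {r R e : ℤ} {S : Finset (ℤ × ℤ)} {C : Set (ℤ × ℤ)}
    (hC : C ∈ CC x r R e S) : Cr x r R e (sq S C) := by
  classical
  obtain ⟨s, hs, h2, rfl, t, ht, h3⟩ := hC
  refine ⟨s, t, hs, h2, h3, ?_⟩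
  induction ht with
  | refl => exact Relation.ReflTransGen.refl
  | @tail a b hab hstep ih =>
    refine Relation.ReflTransGen.tail (b := a) ?_ ?_
    · clear ih h3 hstep
      induction hab with
      | refl => exact Relation.ReflTransGen.refl
      | @tail c d hcd hst ih =>
        refine Relation.ReflTransGen.tail ih ⟨hst.1, hst.2.1, ?_⟩
        rw [Finset.mem_coe, sq, Finset.mem_filter]
        exact ⟨by exact_mod_cast hst.2.2, c, d, ⟨hst.1, hst.2.1, rfl⟩, hcd⟩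
    · refine ⟨hstep.1, hstep.2.1, ?_⟩
      rw [Finset.mem_coe, sq, Finset.mem_filter]
      exact ⟨by exact_mod_cast hstep.2.2, a, b, ⟨hstep.1, hstep.2.1, rfl⟩, hab⟩

theorem sq_subset (S : Finset (ℤ × ℤ)) (C : Set (ℤ × ℤ)) : sq S C ⊆ S := by
  classical
  exact Finset.filter_subset _ _

/-- Distinct crossing clusters give disjoint crossings. -/
theorem Dj_of_clusters {x : ℤ × ℤ} {r R e : ℤ} {S : Finset (ℤ × ℤ)} (T : Finset (Set (ℤ × ℤ)))
    (hT : ∀ C ∈ T, C ∈ CC x r R e S) :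
    Dj (Cr x r R e) T.card (T.biUnion (sq S)) := by
  classical
  induction T using Finset.induction_on with
  | empty => trivial
  | insert C T hC ih =>
    rw [Finset.card_insert_of_notMem hC]
    refine ⟨sq S C, T.biUnion (sq S), ?_, ?_, ?_, sq_cross (hT C (mem_insert_self _ _)),
      ih fun C' h => hT C' (mem_insert_of_mem h)⟩
    · rw [Finset.biUnion_insert]; exact Finset.subset_union_left
    · rw [Finset.biUnion_insert]; exact Finset.subset_union_right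
    · rw [Finset.disjoint_biUnion_right]
      intro C' hC'
      refine sq_disj (hT C (mem_insert_self _ _)) (hT C' (mem_insert_of_mem hC')) ?_
      rintro rfl
      exact hC hC'

theorem Dj_of_ncard {x : ℤ × ℤ} {r R e : ℤ} {S : Finset (ℤ × ℤ)} {j : ℕ}
    (hj : j ≤ (CC x r R e S).ncard) : Dj (Cr x r R e) j S := by
  classical
  obtain ⟨T, hT, hTc⟩ := Set.exists_subset_card_eq hj
  have hf : T.Finite := (CC_finite x r R e S).subset hT
  have h := Dj_of_clusters (x := x) (r := r) (R := R) (e := e) (S := S) hf.toFinset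
    (fun C hC => hT (hf.mem_toFinset.1 hC))
  rw [← Set.ncard_eq_toFinset_card T hf, hTc] at h
  exact Dj_mono Cr_mono j _ _ (Finset.biUnion_subset.2 fun C _ => sq_subset S C) h

/-! ### Loops -/

/-- One step of the interface. -/
theorem nx_step (ω : Cfg) (e : Ed) :
    (ω (hdv e) = true → PStep {hdv e} (ls e) (ls (nx ω e)) ∧ rs (nx ω e) = rs e) ∧
    (ω (hdv e) = false → ls (nx ω e) = ls e ∧ PStep {hdv e} (rs e) (rs (nx ω e))) := by
  rcases e with ⟨a, b⟩ | ⟨a, b⟩ <;> by_cases hp : Even (a + b) <;>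
    simp only [hdv, hp, if_true, if_false] <;> refine ⟨fun h => ?_, fun h => ?_⟩ <;>
    simp only [nx, hp, h, if_true, if_false, Bool.false_eq_true, ls, rs, PStep,
      Set.mem_singleton_iff] <;>
    rw [Int.even_iff] at hp <;> (try simp only [Int.even_iff]) <;> (try split_ifs) <;>
    simp only [Prod.ext_iff, true_and, and_true, true_or] <;> omega

theorem corner (e : Ed) : ((ls e).1 = (hdv e).1 ∨ (ls e).1 = (hdv e).1 + 1) ∧
    ((ls e).2 = (hdv e).2 ∨ (ls e).2 = (hdv e).2 + 1) ∧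
    ((rs e).1 = (hdv e).1 ∨ (rs e).1 = (hdv e).1 + 1) ∧
    ((rs e).2 = (hdv e).2 ∨ (rs e).2 = (hdv e).2 + 1) ∧
    ((ls e).1 + (ls e).2) % 2 = 0 ∧ ((rs e).1 + (rs e).2) % 2 = 1 := by
  rcases e with ⟨a, b⟩ | ⟨a, b⟩ <;> by_cases hp : Even (a + b) <;>
    simp only [hdv, ls, rs, hp, if_true, if_false, true_and, true_or, or_true] <;>
    rw [Int.even_iff] at hp <;> omega

/-- Two edges of a loop are joined by the interface. -/
theorem loop_reach (hn : S_nx) {ω : Cfg} {ℓ : Finset Ed} (hl : IsLoop ω ℓ) {a b : Ed}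
    (ha : a ∈ ℓ) (hb : b ∈ ℓ) : ∃ n, (nx ω)^[n] a = b := by
  obtain ⟨e, he⟩ := hl
  obtain ⟨i, rfl⟩ := (he a).1 ha
  obtain ⟨j, rfl⟩ := (he b).1 hb
  have hinj := (hn ω).1
  obtain ⟨p, hp, hpe⟩ : ∃ p : ℕ, 0 < p ∧ (nx ω)^[p] e = e := by
    have hmem : ∀ n, (nx ω)^[n] e ∈ ℓ := fun n => (he _).2 ⟨n, rfl⟩
    obtain ⟨m, m', hne, heq⟩ := Finite.exists_ne_map_eq_of_infinite
      (fun n : ℕ => (⟨(nx ω)^[n] e, hmem n⟩ : ℓ))
    have heq' : (nx ω)^[m] e = (nx ω)^[m'] e := congrArg Subtype.val heq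
    wlog hlt : m < m' generalizing m m'
    · exact this m' m hne.symm heq.symm heq'.symm (by omega)
    refine ⟨m' - m, by omega, ?_⟩
    have h1 : (nx ω)^[m] ((nx ω)^[m' - m] e) = (nx ω)^[m] e := by
      rw [← Function.iterate_add_apply, heq']
      congr 1
      congr 1
      omega
    exact hinj.iterate m h1
  refine ⟨j + p * i - i, ?_⟩
  have hpi : i ≤ p * i := Nat.le_mul_of_pos_left i hp
  rw [← Function.iterate_add_apply]
  have : j + p * i - i + i = j + p * i := by omega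
  rw [this, Function.iterate_add_apply]
  congr 1
  have : ∀ k : ℕ, (nx ω)^[p * k] e = e := by
    intro k
    induction k with
    | zero => rfl
    | succ k ih => rw [Nat.mul_succ, Function.iterate_add_apply, hpe, ih]
  exact this i

/-- The squares at distance at most `R` of `x`. -/
noncomputable def bxx (x : ℤ × ℤ) (R : ℤ) : Finset (ℤ × ℤ) :=
  (Finset.Icc (x.1 - R) (x.1 + R)) ×ˢ (Finset.Icc (x.2 - R) (x.2 + R))

theorem mem_bxx {x : ℤ × ℤ} {R : ℤ} {v : ℤ × ℤ} : v ∈ bxx x R ↔ nm (v - x) ≤ R := by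
  simp only [bxx, Finset.mem_product, Finset.mem_Icc, nm, Prod.fst_sub, Prod.snd_sub, max_le_iff,
    abs_le]
  omega

/-- The squares of the box in the state `b`. -/
noncomputable def Sb (x : ℤ × ℤ) (R : ℤ) (ω : Cfg) (b : Bool) : Finset (ℤ × ℤ) :=
  (bxx x R).filter (fun v => ω v = b)

theorem arc {x : ℤ × ℤ} {R : ℤ} {ω : Cfg} {e : Ed} {n : ℕ}
    (h : ∀ i < n, nm (hdv ((nx ω)^[i] e) - x) ≤ R) :
    ls ((nx ω)^[n] e) ∈ cl (Sb x R ω true) (ls e) ∧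
      rs ((nx ω)^[n] e) ∈ cl (Sb x R ω false) (rs e) := by
  induction n with
  | zero => exact ⟨Relation.ReflTransGen.refl, Relation.ReflTransGen.refl⟩
  | succ n ih =>
    obtain ⟨h1, h2⟩ := ih fun i hi => h i (by omega)
    have h3 := mem_bxx.2 (h n (by omega))
    rw [Function.iterate_succ_apply']
    generalize (nx ω)^[n] e = a at h1 h2 h3
    obtain ⟨h4, h5⟩ := nx_step ω a
    cases hb : ω (hdv a) with
    | true =>
      obtain ⟨h6, h7⟩ := h4 hb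
      rw [h7]
      refine ⟨Relation.ReflTransGen.tail h1 (PStep_mono ?_ h6), h2⟩
      rw [Set.singleton_subset_iff, Finset.mem_coe, Sb, Finset.mem_filter]
      exact ⟨h3, hb⟩
    | false =>
      obtain ⟨h6, h7⟩ := h5 hb
      rw [h6]
      refine ⟨h1, Relation.ReflTransGen.tail h2 (PStep_mono ?_ h7)⟩
      rw [Set.singleton_subset_iff, Finset.mem_coe, Sb, Finset.mem_filter]
      exact ⟨h3, hb⟩

/-- A crossing loop has crossing clusters on both sides. -/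
theorem exists_arc (hn : S_nx) {x : ℤ × ℤ} {r R : ℤ} {ω : Cfg} {ℓ : Finset Ed}
    (hl : IsLoop ω ℓ) (h1 : ∃ v ∈ vs ℓ, nm (v - x) ≤ r) (h2 : ∃ v ∈ vs ℓ, R ≤ nm (v - x)) :
    ∃ e ∈ ℓ, cl (Sb x R ω true) (ls e) ∈ CC x r R 0 (Sb x R ω true) ∧
      cl (Sb x R ω false) (rs e) ∈ CC x r R 1 (Sb x R ω false) := by
  classical
  obtain ⟨v, hv, hv1⟩ := h1
  obtain ⟨w, hw, hw1⟩ := h2
  unfold vs at hv hw
  rw [Finset.mem_image] at hv hw
  obtain ⟨a, ha, rfl⟩ := hv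
  obtain ⟨b, hb, rfl⟩ := hw
  have hex : ∃ n, R ≤ nm (hdv ((nx ω)^[n] a) - x) := by
    obtain ⟨n, hn⟩ := loop_reach hn hl ha hb
    exact ⟨n, by rw [hn]; exact hw1⟩
  obtain ⟨n, hn1, hn2⟩ : ∃ n, R ≤ nm (hdv ((nx ω)^[n] a) - x) ∧
      ∀ i < n, nm (hdv ((nx ω)^[i] a) - x) ≤ R :=
    ⟨Nat.find hex, Nat.find_spec hex, fun i hi => by
      have := Nat.find_min hex hi
      omega⟩
  obtain ⟨h3, h4⟩ := arc hn2
  generalize (nx ω)^[n] a = c at h3 h4 hn1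
  obtain ⟨c1, c2, c3, c4, c5, c6⟩ := corner a
  obtain ⟨d1, d2, d3, d4, d5, d6⟩ := corner c
  simp only [nm, Prod.fst_sub, Prod.snd_sub, max_le_iff, le_max_iff, abs_le, le_abs] at hv1 hn1
  refine ⟨a, ha, ⟨ls a, c5, ?_, rfl, ls c, h3, ?_⟩, ⟨rs a, c6, ?_, rfl, rs c, h4, ?_⟩⟩ <;>
    simp only [nm, Prod.fst_sub, Prod.snd_sub, max_le_iff, le_max_iff, abs_le, le_abs] <;> omega

theorem W_cl (hs : S_step) {x : ℤ × ℤ} {R : ℤ} {ω : Cfg} {ℓ : Finset Ed} (hl : IsLoop ω ℓ)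
    {s t : ℤ × ℤ} (h0 : (s.1 + s.2) % 2 = 0) (h : t ∈ cl (Sb x R ω true) s) :
    W ℓ s = W ℓ t := by
  induction h with
  | refl => rfl
  | @tail a b h1 h2 ih =>
    have := cl_parity (show a ∈ cl (Sb x R ω true) s from h1)
    rw [ih]
    refine hs ω ℓ hl a b (Or.inl ⟨by rw [Int.even_iff]; omega, h2.1, h2.2.1, ?_⟩)
    have h3 := h2.2.2
    rw [Finset.mem_coe, Sb, Finset.mem_filter] at h3
    exact h3.2

theorem W_cl' (hs : S_step) {x : ℤ × ℤ} {R : ℤ} {ω : Cfg} {ℓ : Finset Ed} (hl : IsLoop ω ℓ)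
    {s t : ℤ × ℤ} (h0 : (s.1 + s.2) % 2 = 1) (h : t ∈ cl (Sb x R ω false) s) :
    W ℓ s = W ℓ t := by
  induction h with
  | refl => rfl
  | @tail a b h1 h2 ih =>
    have := cl_parity (show a ∈ cl (Sb x R ω false) s from h1)
    rw [ih]
    refine hs ω ℓ hl a b (Or.inr ⟨by rw [Int.odd_iff]; omega, h2.1, h2.2.1, ?_⟩)
    have h3 := h2.2.2
    rw [Finset.mem_coe, Sb, Finset.mem_filter] at h3
    show _ ∉ op ω
    unfold op
    rw [Set.mem_ofPred_eq, h3.2]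
    simp

/-- The number of the crossing loops is at most the number of the crossing clusters. -/
theorem loops_le (hn : S_nx) (hj : S_jump) (hs : S_step) (ht : S_two) (x : ℤ × ℤ) (r R : ℤ)
    (ω : Cfg) :
    Set.ncard {ℓ | IsLoop ω ℓ ∧ (∃ v ∈ vs ℓ, nm (v - x) ≤ r) ∧ ∃ v ∈ vs ℓ, R ≤ nm (v - x)} ≤
      (CC x r R 0 (Sb x R ω true)).ncard + (CC x r R 1 (Sb x R ω false)).ncard := by
  classical
  set Λ : Set (Finset Ed) :=
    {ℓ | IsLoop ω ℓ ∧ (∃ v ∈ vs ℓ, nm (v - x) ≤ r) ∧ ∃ v ∈ vs ℓ, R ≤ nm (v - x)} with hΛ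
  by_cases hf : Λ.Finite
  swap
  · rw [Set.Infinite.ncard hf]; exact Nat.zero_le _
  haveI := hf.fintype
  haveI := (CC_finite x r R 0 (Sb x R ω true)).fintype
  haveI := (CC_finite x r R 1 (Sb x R ω false)).fintype
  have hex : ∀ ℓ : Λ, ∃ e ∈ ℓ.1, cl (Sb x R ω true) (ls e) ∈ CC x r R 0 (Sb x R ω true) ∧
      cl (Sb x R ω false) (rs e) ∈ CC x r R 1 (Sb x R ω false) :=
    fun ℓ => exists_arc hn ℓ.2.1 ℓ.2.2.1 ℓ.2.2.2
  choose e he hP hD using hex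
  have hr0 : ∀ C : CC x r R 0 (Sb x R ω true), ∃ s, C.1 = cl (Sb x R ω true) s :=
    fun C => by obtain ⟨s, -, -, h, -⟩ := C.2; exact ⟨s, h⟩
  have hr1 : ∀ C : CC x r R 1 (Sb x R ω false), ∃ s, C.1 = cl (Sb x R ω false) s :=
    fun C => by obtain ⟨s, -, -, h, -⟩ := C.2; exact ⟨s, h⟩
  choose p hp using hr0
  choose d hd using hr1
  let M : Matrix ((CC x r R 0 (Sb x R ω true)) ⊕ (CC x r R 1 (Sb x R ω false))) Λ ℚ :=
    fun q ℓ => (W ℓ.1 (Sum.elim p d q) : ℚ)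
  have hinj : Function.Injective M.mulVecLin := by
    rw [injective_iff_map_eq_zero]
    intro a ha
    funext ℓ0
    have h1 : ∑ ℓ : Λ, (W ℓ.1 (p ⟨_, hP ℓ0⟩) : ℚ) * a ℓ = 0 :=
      congrFun ha (Sum.inl ⟨_, hP ℓ0⟩)
    have h2 : ∑ ℓ : Λ, (W ℓ.1 (d ⟨_, hD ℓ0⟩) : ℚ) * a ℓ = 0 :=
      congrFun ha (Sum.inr ⟨_, hD ℓ0⟩)
    have h3 : ∀ ℓ : Λ, W ℓ.1 (p ⟨_, hP ℓ0⟩) = W ℓ.1 (ls (e ℓ0)) := by
      intro ℓ
      have hm : ls (e ℓ0) ∈ cl (Sb x R ω true) (p ⟨_, hP ℓ0⟩) := by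
        rw [← hp ⟨_, hP ℓ0⟩]
        exact Relation.ReflTransGen.refl
      refine W_cl hs ℓ.2.1 ?_ hm
      rw [← cl_parity hm]
      exact (corner (e ℓ0)).2.2.2.2.1
    have h4 : ∀ ℓ : Λ, W ℓ.1 (d ⟨_, hD ℓ0⟩) = W ℓ.1 (rs (e ℓ0)) := by
      intro ℓ
      have hm : rs (e ℓ0) ∈ cl (Sb x R ω false) (d ⟨_, hD ℓ0⟩) := by
        rw [← hd ⟨_, hD ℓ0⟩]
        exact Relation.ReflTransGen.refl
      refine W_cl' hs ℓ.2.1 ?_ hm
      rw [← cl_parity hm]
      exact (corner (e ℓ0)).2.2.2.2.2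
    have h5 : ∀ ℓ : Λ, (W ℓ.1 (ls (e ℓ0)) : ℚ) - W ℓ.1 (rs (e ℓ0)) = if ℓ = ℓ0 then 1 else 0 := by
      intro ℓ
      have h6 := hj ω ℓ.1 ℓ.2.1 (e ℓ0)
      by_cases h7 : ℓ = ℓ0
      · rw [h7] at h6 ⊢
        rw [if_pos (he ℓ0)] at h6
        rw [h6]
        simp
      · have h8 : e ℓ0 ∉ ℓ.1 :=
          (ht ω ℓ.1 ℓ0.1 ℓ.2.1 ℓ0.2.1 (fun h => h7 (Subtype.ext h))).1 _ (he ℓ0)
        rw [if_neg h8] at h6
        rw [h6]
        simp [h7]
    have h6 : ∑ ℓ : Λ, ((W ℓ.1 (ls (e ℓ0)) : ℚ) - W ℓ.1 (rs (e ℓ0))) * a ℓ = 0 := by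
      simp only [sub_mul, Finset.sum_sub_distrib]
      simp only [h3] at h1
      simp only [h4] at h2
      rw [h1, h2, sub_zero]
    simp only [h5] at h6
    simpa using h6
  have h := LinearMap.finrank_le_finrank_of_injective hinj
  rw [Module.finrank_fintype_fun_eq_card, Module.finrank_fintype_fun_eq_card,
    Fintype.card_sum] at h
  rw [← Nat.card_coe_set_eq, ← Nat.card_coe_set_eq, ← Nat.card_coe_set_eq, Nat.card_eq_fintype_card,
    Nat.card_eq_fintype_card, Nat.card_eq_fintype_card]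
  exact h

end Vale.Agent.P167.H166
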