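import Vale.Agent.P167.H166.Pot
import Vale.Agent.P167.FK.Flip

/-!
# P167, GQ8: arcs of the interfaces in a box and their potentials
-/

namespace Vale.Agent.P167.H166

open Finset
open Vale.Agent.P145.FB (PStep PConn)

/-! ### Potentials and open steps -/

theorem nm_le {s : ℤ × ℤ} {R : ℤ} : nm s ≤ R ↔ -R ≤ s.1 ∧ s.1 ≤ R ∧ -R ≤ s.2 ∧ s.2 ≤ R := by
  simp only [nm, max_le_iff, abs_le]
  tauto

theorem pstep_box {F : Set (ℤ × ℤ)} {R : ℤ} {s t : ℤ × ℤ} (h : PStep F s t) (hs : nm s ≤ R)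
    (ht : nm t ≤ R) : (min s.1 t.1, min s.2 t.2) ∈ FK.Bq 0 R := by
  rw [nm_le] at hs ht
  obtain ⟨h1, h2, -⟩ := h
  rw [mem_Bq]
  simp only [Prod.fst_zero, Prod.snd_zero]
  omega

/-- A step of the cluster is a step of an interface. -/
theorem exists_edge {v s t : ℤ × ℤ} (h : PStep {v} s t) :
    (Even (s.1 + s.2) → ∃ e, hdv e = v ∧ ls e = s) ∧
    (Odd (s.1 + s.2) → ∃ e, hdv e = v ∧ rs e = s) := by
  obtain ⟨h1, h2, h3⟩ := h
  rw [Set.mem_singleton_iff] at h3
  subst h3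
  constructor
  · intro he
    by_cases hs : s = FK.pa (min s.1 t.1, min s.2 t.2)
    · exact ⟨FK.ia _, FK.hdv_ia _, by rw [FK.ls_ia]; exact hs.symm⟩
    · refine ⟨FK.ib _, FK.hdv_ib _, ?_⟩
      rw [FK.ls_ib]
      unfold FK.pa at hs
      unfold FK.pb
      rw [Int.even_iff] at he
      simp only [Int.even_iff] at hs ⊢
      split_ifs at hs ⊢ <;> simp only [Prod.ext_iff] at hs ⊢ <;> omega
  · intro he
    have key : s = FK.da (min s.1 t.1, min s.2 t.2) ∨ s = FK.db (min s.1 t.1, min s.2 t.2) := by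
      unfold FK.da FK.db
      rw [Int.odd_iff] at he
      simp only [Int.even_iff]
      split_ifs <;> simp only [Prod.ext_iff] <;> omega
    by_cases hp : Even ((min s.1 t.1) + (min s.2 t.2))
    · rcases key with h4 | h4
      · exact ⟨FK.ib _, FK.hdv_ib _, by rw [FK.rs_ib]; simp only [hp, if_true]; exact h4.symm⟩
      · exact ⟨FK.ia _, FK.hdv_ia _, by rw [FK.rs_ia]; simp only [hp, if_true]; exact h4.symm⟩
    · rcases key with h4 | h4
      · exact ⟨FK.ia _, FK.hdv_ia _, by rw [FK.rs_ia]; simp only [hp, if_false]; exact h4.symm⟩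
      · exact ⟨FK.ib _, FK.hdv_ib _, by rw [FK.rs_ib]; simp only [hp, if_false]; exact h4.symm⟩

theorem opp {v s t t' : ℤ × ℤ} (h : PStep {v} s t) (h' : PStep {v} s t') : t = t' := by
  obtain ⟨h1, h2, h3⟩ := h
  obtain ⟨h1', h2', h3'⟩ := h'
  rw [Set.mem_singleton_iff] at h3 h3'
  subst h3
  simp only [Prod.ext_iff] at h3' ⊢
  omega

theorem Pot.pstep {R : ℤ} {ω : Cfg} {A : Set Ed} {w : ℤ × ℤ → ℤ} (hw : Pot R A w)
    (h : Inv (FK.Bq 0 R : Set (ℤ × ℤ)) ω A) {s t : ℤ × ℤ} (hs : nm s ≤ R) (ht : nm t ≤ R)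
    (hst : Even (s.1 + s.2) ∧ PStep (op ω) s t ∨ Odd (s.1 + s.2) ∧ PStep (op ω)ᶜ s t) :
    w s = w t := by
  have hB : (min s.1 t.1, min s.2 t.2) ∈ FK.Bq 0 R := by
    rcases hst with h1 | h1
    · exact pstep_box h1.2 hs ht
    · exact pstep_box h1.2 hs ht
  rcases hst with ⟨h1, h2⟩ | ⟨h1, h2⟩
  · have hv : PStep {(min s.1 t.1, min s.2 t.2)} s t := ⟨h2.1, h2.2.1, rfl⟩
    obtain ⟨e, he1, he2⟩ := (exists_edge hv).1 h1
    have hb : ω (hdv e) = true := by rw [he1]; exact h2.2.2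
    obtain ⟨h3, h4⟩ := (nx_step ω e).1 hb
    rw [he1, he2] at h3
    have h5 := opp hv h3
    have h6 := (hw.nx h (e := e) (by rw [he1]; exact hB)).1
    rw [he2, ← h5] at h6
    exact h6.symm
  · have hv : PStep {(min s.1 t.1, min s.2 t.2)} s t := ⟨h2.1, h2.2.1, rfl⟩
    obtain ⟨e, he1, he2⟩ := (exists_edge hv).2 h1
    have hb : ω (hdv e) = false := by
      rw [he1]
      have := h2.2.2
      simp only [Set.mem_compl_iff, op, Set.mem_ofPred_eq, Bool.not_eq_true] at this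
      exact this
    obtain ⟨h3, h4⟩ := (nx_step ω e).2 hb
    rw [he1, he2] at h4
    have h5 := opp hv h4
    have h6 := (hw.nx h (e := e) (by rw [he1]; exact hB)).2.2
    rw [he2, ← h5] at h6
    exact h6.symm

theorem pconn_nm {F : Set (ℤ × ℤ)} {S : Set (ℤ × ℤ)} {s t : ℤ × ℤ} (h : PConn F S s t) : t ∈ S := by
  obtain ⟨h1, h2⟩ := h
  induction h2 with
  | refl => exact h1
  | tail _ h3 _ => exact h3.2

theorem pconn_par {F : Set (ℤ × ℤ)} {S : Set (ℤ × ℤ)} {s t : ℤ × ℤ} (h : PConn F S s t) :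
    (t.1 + t.2) % 2 = (s.1 + s.2) % 2 := by
  obtain ⟨h1, h2⟩ := h
  induction h2 with
  | refl => rfl
  | @tail a b _ h3 ih =>
    obtain ⟨h4, h5, -⟩ := h3.1
    omega

/-- The potential is constant on the components of a subset of the box. -/
theorem Pot.pconn {R : ℤ} {ω : Cfg} {A : Set Ed} {w : ℤ × ℤ → ℤ} (hw : Pot R A w)
    (h : Inv (FK.Bq 0 R : Set (ℤ × ℤ)) ω A) {S : Set (ℤ × ℤ)} (hS : ∀ s ∈ S, nm s ≤ R)
    {s t : ℤ × ℤ} (hst : Even (s.1 + s.2) ∧ PConn (op ω) S s t ∨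
      Odd (s.1 + s.2) ∧ PConn (op ω)ᶜ S s t) : w s = w t := by
  rcases hst with ⟨h1, h2⟩ | ⟨h1, h2⟩
  · have h3 := h2
    obtain ⟨h4, h5⟩ := h2
    clear h3
    have key : ∀ t, Relation.ReflTransGen (fun x y => PStep (op ω) x y ∧ y ∈ S) s t →
        t ∈ S ∧ Even (t.1 + t.2) ∧ w s = w t := by
      intro t ht
      induction ht with
      | refl => exact ⟨h4, h1, rfl⟩
      | @tail a b _ h6 ih =>
        refine ⟨h6.2, FK.even_step h6.1 ih.2.1, ?_⟩
        rw [ih.2.2]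
        exact hw.pstep h (hS _ ih.1) (hS _ h6.2) (Or.inl ⟨ih.2.1, h6.1⟩)
    exact (key t h5).2.2
  · obtain ⟨h4, h5⟩ := h2
    have key : ∀ t, Relation.ReflTransGen (fun x y => PStep (op ω)ᶜ x y ∧ y ∈ S) s t →
        t ∈ S ∧ Odd (t.1 + t.2) ∧ w s = w t := by
      intro t ht
      induction ht with
      | refl => exact ⟨h4, h1, rfl⟩
      | @tail a b _ h6 ih =>
        have h7 : Odd (b.1 + b.2) := by
          have := ih.2.1
          rw [Int.odd_iff] at this ⊢
          obtain ⟨h8, h9, -⟩ := h6.1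
          omega
        refine ⟨h6.2, h7, ?_⟩
        rw [ih.2.2]
        exact hw.pstep h (hS _ ih.1) (hS _ h6.2) (Or.inr ⟨ih.2.1, h6.1⟩)
    exact (key t h5).2.2

/-! ### Two values -/

/-- The edge between two adjacent sites. -/
theorem Pot.two {R : ℤ} {A : Set Ed} {w : ℤ × ℤ → ℤ} (hw : Pot R A w) {k : ℤ}
    (hk : ∀ e ∈ A, (hdv e ∈ FK.Bq 0 R ∨ tlv e ∈ FK.Bq 0 R) → w (rs e) = k) {s0 : ℤ × ℤ}
    (hs0 : nm s0 ≤ R) (h0 : w s0 = k ∨ w s0 = k + 1) {s : ℤ × ℤ} (hs : nm s ≤ R) :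
    w s = k ∨ w s = k + 1 := by
  have step : ∀ e : Ed, (hdv e ∈ FK.Bq 0 R ∨ tlv e ∈ FK.Bq 0 R) →
      ((w (ls e) = k ∨ w (ls e) = k + 1) ↔ (w (rs e) = k ∨ w (rs e) = k + 1)) := by
    intro e he
    have h1 := hw e he
    by_cases hA : e ∈ A
    · have h2 := h1.1 hA
      have h3 := hk e hA he
      constructor <;> intro _ <;> omega
    · rw [h1.2 hA]
  have right : ∀ x y : ℤ, -R ≤ x → x < R → -R ≤ y → y ≤ R →
      ((w (x, y) = k ∨ w (x, y) = k + 1) ↔ (w (x + 1, y) = k ∨ w (x + 1, y) = k + 1)) := by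
    intro x y h1 h2 h3 h4
    have h5 := step (Sum.inr (x, y - 1)) (by
      simp only [hdv, tlv, mem_Bq, Prod.fst_zero, Prod.snd_zero]
      by_cases hp : Even (x + (y - 1)) <;> simp only [hp, if_true, if_false] <;> omega)
    have e1 : y - 1 + 1 = y := by ring
    simp only [ls, rs, e1] at h5
    by_cases hp : Even (x + (y - 1))
    · simp only [hp, if_true] at h5
      exact h5.symm
    · simp only [hp, if_false] at h5
      exact h5
  have up : ∀ x y : ℤ, -R ≤ x → x ≤ R → -R ≤ y → y < R →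
      ((w (x, y) = k ∨ w (x, y) = k + 1) ↔ (w (x, y + 1) = k ∨ w (x, y + 1) = k + 1)) := by
    intro x y h1 h2 h3 h4
    have h5 := step (Sum.inl (x - 1, y)) (by
      simp only [hdv, tlv, mem_Bq, Prod.fst_zero, Prod.snd_zero]
      by_cases hp : Even (x - 1 + y) <;> simp only [hp, if_true, if_false] <;> omega)
    have e1 : x - 1 + 1 = x := by ring
    simp only [ls, rs, e1] at h5
    by_cases hp : Even (x - 1 + y)
    · simp only [hp, if_true] at h5
      exact h5.symm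
    · simp only [hp, if_false] at h5
      exact h5
  have all : ∀ x y : ℤ, -R ≤ x → x ≤ R → -R ≤ y → y ≤ R →
      ((w (-R, -R) = k ∨ w (-R, -R) = k + 1) ↔ (w (x, y) = k ∨ w (x, y) = k + 1)) := by
    intro x y h1 h2 h3 h4
    have a1 : ∀ x : ℤ, -R ≤ x → x ≤ R →
        ((w (-R, -R) = k ∨ w (-R, -R) = k + 1) ↔ (w (x, -R) = k ∨ w (x, -R) = k + 1)) := by
      intro x hx
      induction x, hx using Int.leInduction with
      | base => intro _; rfl
      | succ n hn ih =>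
        intro hR
        rw [ih (by omega)]
        exact right n (-R) hn (by omega) le_rfl (by omega)
    have a2 : ∀ y : ℤ, -R ≤ y → y ≤ R →
        ((w (x, -R) = k ∨ w (x, -R) = k + 1) ↔ (w (x, y) = k ∨ w (x, y) = k + 1)) := by
      intro y hy
      induction y, hy using Int.leInduction with
      | base => intro _; rfl
      | succ n hn ih =>
        intro hR
        rw [ih (by omega)]
        exact up x n h1 h2 hn (by omega)
    rw [a1 x h1 h2, a2 y h3 h4]
  rw [nm_le] at hs0 hs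
  exact (all s.1 s.2 hs.1 hs.2.1 hs.2.2.1 hs.2.2.2).1
    ((all s0.1 s0.2 hs0.1 hs0.2.1 hs0.2.2.1 hs0.2.2.2).2 h0)

/-! ### Arcs -/

/-- `e'` follows `e` on an interface inside `B`. -/
def Fw (B : Finset (ℤ × ℤ)) (ω : Cfg) (e e' : Ed) : Prop :=
  ∃ n : ℕ, (nx ω)^[n] e = e' ∧ ∀ i < n, hdv ((nx ω)^[i] e) ∈ B

theorem Fw.refl (B : Finset (ℤ × ℤ)) (ω : Cfg) (e : Ed) : Fw B ω e e :=
  ⟨0, rfl, fun i hi => absurd hi (Nat.not_lt_zero i)⟩

theorem Fw.trans {B : Finset (ℤ × ℤ)} {ω : Cfg} {a b c : Ed} (h : Fw B ω a b) (h' : Fw B ω b c) :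
    Fw B ω a c := by
  obtain ⟨n, rfl, h1⟩ := h
  obtain ⟨m, rfl, h2⟩ := h'
  refine ⟨m + n, by rw [Function.iterate_add_apply], fun i hi => ?_⟩
  by_cases hin : i < n
  · exact h1 i hin
  · have := h2 (i - n) (by omega)
    rw [← Function.iterate_add_apply] at this
    rwa [show i - n + n = i by omega] at this

theorem Fw.comp {B : Finset (ℤ × ℤ)} {ω : Cfg} {e a b : Ed} (h : Fw B ω e a) (h' : Fw B ω e b) :
    Fw B ω a b ∨ Fw B ω b a := by
  obtain ⟨n, rfl, h1⟩ := h
  obtain ⟨m, rfl, h2⟩ := h'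
  rcases le_total n m with h | h
  · left
    refine ⟨m - n, by rw [← Function.iterate_add_apply, Nat.sub_add_cancel h], fun i hi => ?_⟩
    rw [← Function.iterate_add_apply]
    exact h2 _ (by omega)
  · right
    refine ⟨n - m, by rw [← Function.iterate_add_apply, Nat.sub_add_cancel h], fun i hi => ?_⟩
    rw [← Function.iterate_add_apply]
    exact h1 _ (by omega)

theorem Fw.comp' {B : Finset (ℤ × ℤ)} {ω : Cfg} {e a b : Ed} (h : Fw B ω a e) (h' : Fw B ω b e) :
    Fw B ω a b ∨ Fw B ω b a := by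
  obtain ⟨n, h3, h1⟩ := h
  obtain ⟨m, h4, h2⟩ := h'
  rcases le_total n m with h | h
  · right
    refine ⟨m - n, ?_, fun i hi => h2 i (by omega)⟩
    apply ((s_nx ω).1.iterate n)
    rw [← Function.iterate_add_apply, h3, show n + (m - n) = m by omega, h4]
  · left
    refine ⟨n - m, ?_, fun i hi => h1 i (by omega)⟩
    apply ((s_nx ω).1.iterate m)
    rw [← Function.iterate_add_apply, h4, show m + (n - m) = n by omega, h3]

/-- The arc of `e` in `B`. -/
def Arc (B : Finset (ℤ × ℤ)) (ω : Cfg) (e : Ed) : Set Ed := {e' | Fw B ω e e' ∨ Fw B ω e' e}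

theorem self_mem_Arc (B : Finset (ℤ × ℤ)) (ω : Cfg) (e : Ed) : e ∈ Arc B ω e :=
  Or.inl (Fw.refl B ω e)

theorem Arc.symm {B : Finset (ℤ × ℤ)} {ω : Cfg} {a b : Ed} (h : b ∈ Arc B ω a) : a ∈ Arc B ω b :=
  h.elim Or.inr Or.inl

theorem Arc.trans {B : Finset (ℤ × ℤ)} {ω : Cfg} {a b c : Ed} (h : b ∈ Arc B ω a)
    (h' : c ∈ Arc B ω b) : c ∈ Arc B ω a := by
  rcases h with h | h <;> rcases h' with h' | h'
  · exact Or.inl (h.trans h')
  · exact Fw.comp' h h'
  · exact Fw.comp h h'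
  · exact Or.inr (h'.trans h)

theorem Arc.eq {B : Finset (ℤ × ℤ)} {ω : Cfg} {a b : Ed} (h : b ∈ Arc B ω a) :
    Arc B ω b = Arc B ω a := by
  ext c
  exact ⟨fun hc => Arc.trans h hc, fun hc => Arc.trans (Arc.symm h) hc⟩

theorem Arc.inv (B : Finset (ℤ × ℤ)) (ω : Cfg) (e : Ed) :
    Inv (B : Set (ℤ × ℤ)) ω (Arc B ω e) := by
  intro a ha
  have h1 : Fw B ω a (nx ω a) := ⟨1, rfl, fun i hi => by
    rw [Nat.lt_one_iff] at hi
    subst hi
    exact Finset.mem_coe.1 ha⟩
  constructor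
  · intro h
    exact Arc.trans h (Or.inl h1)
  · intro h
    exact Arc.trans h (Or.inr h1)

/-- The edges of the arc of an edge of the box touch the box. -/
theorem Arc.touch {B : Finset (ℤ × ℤ)} {ω : Cfg} {e a : Ed} (he : hdv e ∈ B ∨ tlv e ∈ B)
    (ha : a ∈ Arc B ω e) : hdv a ∈ B ∨ tlv a ∈ B := by
  rcases ha with ⟨n, rfl, h⟩ | ⟨n, h1, h⟩
  · cases n with
    | zero => exact he
    | succ n =>
      right
      rw [Function.iterate_succ_apply', tlv_nx]
      exact h n (by omega)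
  · cases n with
    | zero =>
      simp only [Function.iterate_zero, id_eq] at h1
      rw [h1]
      exact he
    | succ n => exact Or.inl (h 0 (by omega))

theorem touch_finite (B : Finset (ℤ × ℤ)) : {e : Ed | hdv e ∈ B ∨ tlv e ∈ B}.Finite := by
  classical
  have h1 : {e : Ed | hdv e ∈ B}.Finite := by
    refine (Set.Finite.subset ((B.image FK.ia ∪ B.image FK.ib : Finset Ed).finite_toSet) ?_)
    intro e he
    rw [Finset.mem_coe, Finset.mem_union, Finset.mem_image, Finset.mem_image]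
    rcases FK.eq_of_hdv (v := hdv e) rfl with h | h
    · exact Or.inl ⟨hdv e, he, h.symm⟩
    · exact Or.inr ⟨hdv e, he, h.symm⟩
  have h2 : {e : Ed | tlv e ∈ B}.Finite := by
    -- edges whose tail is in `B`: images under `nx` of the edges whose head is in `B`
    have : {e : Ed | tlv e ∈ B} ⊆ (nx FK.eta0) '' {e : Ed | hdv e ∈ B} := by
      intro e he
      obtain ⟨e', rfl⟩ := (s_nx FK.eta0).2 e
      refine ⟨e', ?_, rfl⟩
      rw [Set.mem_ofPred_eq, tlv_nx] at he
      exact he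
    exact (h1.image _).subset this
  have : {e : Ed | hdv e ∈ B ∨ tlv e ∈ B} = {e : Ed | hdv e ∈ B} ∪ {e : Ed | tlv e ∈ B} := rfl
  rw [this]
  exact h1.union h2

theorem Arc.finite {B : Finset (ℤ × ℤ)} {ω : Cfg} {e : Ed} (he : hdv e ∈ B ∨ tlv e ∈ B) :
    (Arc B ω e).Finite := (touch_finite B).subset fun _ ha => Arc.touch he ha

/-- Either the arc is a loop inside the box or it leaves the box. -/
theorem Arc.cases {B : Finset (ℤ × ℤ)} {ω : Cfg} {e : Ed} (he : hdv e ∈ B ∨ tlv e ∈ B) :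
    (∃ ℓ, IsLoop ω ℓ ∧ vs ℓ ⊆ B ∧ (ℓ : Set Ed) = Arc B ω e) ∨
    ∃ n : ℕ, hdv ((nx ω)^[n] e) ∉ B ∧ ∀ i < n, hdv ((nx ω)^[i] e) ∈ B := by
  classical
  by_cases hex : ∃ n : ℕ, hdv ((nx ω)^[n] e) ∉ B
  · right
    exact ⟨Nat.find hex, Nat.find_spec hex, fun i hi => by
      have := Nat.find_min hex hi
      exact not_not.1 this⟩
  · left
    push Not at hex
    have hfw : ∀ n, Fw B ω e ((nx ω)^[n] e) := fun n => ⟨n, rfl, fun i _ => hex i⟩
    have hfin := Arc.finite (ω := ω) he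
    have horb : (Set.range fun n : ℕ => (nx ω)^[n] e).Finite :=
      hfin.subset (by rintro _ ⟨n, rfl⟩; exact Or.inl (hfw n))
    have hloop : IsLoop ω horb.toFinset := ⟨e, fun e' => by
      rw [Set.Finite.mem_toFinset]; rfl⟩
    refine ⟨horb.toFinset, hloop, ?_, ?_⟩
    · intro v hv
      unfold vs at hv
      rw [Finset.mem_image] at hv
      obtain ⟨a, ha, rfl⟩ := hv
      rw [Set.Finite.mem_toFinset] at ha
      obtain ⟨n, rfl⟩ := ha
      exact hex n
    · ext a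
      rw [Finset.mem_coe, Set.Finite.mem_toFinset]
      constructor
      · rintro ⟨n, rfl⟩
        exact Or.inl (hfw n)
      · rintro (⟨n, rfl, -⟩ | ⟨n, h1, -⟩)
        · exact ⟨n, rfl⟩
        · -- `a` is before `e`: the orbit of `e` is periodic
          have hmem : e ∈ horb.toFinset := by
            rw [Set.Finite.mem_toFinset]; exact ⟨0, rfl⟩
          have key : ∀ (m : ℕ) (b : Ed), (nx ω)^[m] b ∈ horb.toFinset → b ∈ horb.toFinset := by
            intro m
            induction m with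
            | zero => intro b hb; exact hb
            | succ m ih =>
              intro b hb
              rw [Function.iterate_succ_apply] at hb
              exact hloop.nx_mem_iff.1 (ih _ hb)
          have := key n a (by rw [h1]; exact hmem)
          rw [Set.Finite.mem_toFinset] at this
          exact this

end Vale.Agent.P167.H166
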