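import Vale.Agent.P167.H166.Clu
import Vale.Agent.P167.H871.Tr

/-!
# P167, block D3: the number of the loops which cross an annulus has an exponential moment
-/

namespace Vale.Agent.P167.H166

open Finset MeasureTheory Vale.Agent.P167.H871
open Vale.Agent.P145.FB (PStep PConn NC)
open scoped ENNReal

theorem pconn_of {F : Set (ℤ × ℤ)} {s t : ℤ × ℤ} (h : Relation.ReflTransGen (PStep F) s t) :
    PConn F Set.univ s t := by
  refine ⟨Set.mem_univ _, ?_⟩
  induction h with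
  | refl => exact Relation.ReflTransGen.refl
  | tail _ h2 ih => exact ih.tail ⟨h2, Set.mem_univ _⟩

theorem arm_of_cr {x : ℤ × ℤ} {r R : ℤ} {ω : Cfg} (h : Cr x r R 0 (Sb x R ω true)) :
    ArmS (fi x) (2 * (r + 1)) (R - 1) (SB ω) := by
  obtain ⟨s, t, h1, h2, h3, h4⟩ := h
  have h5 : Relation.ReflTransGen (PStep (op ω)) s t := by
    refine rtg_mono ?_ h4
    intro v hv
    rw [Finset.mem_coe, Sb, Finset.mem_filter] at hv
    exact hv.2
  have h6 := nc_of_pconn (by rw [Int.even_iff]; exact h1) (pconn_of h5)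
  simp only [nm, Prod.fst_sub, Prod.snd_sub, max_le_iff, le_max_iff, abs_le, le_abs] at h2 h3
  refine ⟨fi s, fi t, h6.mono_ (fun _ hz => hz.1), ?_, ?_, ?_⟩ <;> simp only [fi, abs_le, le_abs] <;>
    omega

theorem arm_of_cr' {x : ℤ × ℤ} {r R : ℤ} {ω : Cfg} (h : Cr x r R 1 (Sb x R ω false)) :
    ArmS (fi x) (2 * (r + 1)) (R - 1) (SB ω)ᶜ := by
  obtain ⟨s, t, h1, h2, h3, h4⟩ := h
  have h5 : Relation.ReflTransGen (PStep (op ω)ᶜ) s t := by
    refine rtg_mono ?_ h4
    intro v hv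
    rw [Finset.mem_coe, Sb, Finset.mem_filter] at hv
    show v ∉ op ω
    unfold op
    rw [Set.mem_ofPred_eq, hv.2]
    simp
  have h6 := ncd_of_pconn (by rw [Int.odd_iff]; exact h1) (pconn_of h5)
  simp only [nm, Prod.fst_sub, Prod.snd_sub, max_le_iff, le_max_iff, abs_le, le_abs] at h2 h3
  refine ⟨fi s, fi t, h6.mono_ (fun _ hz => hz.1), ?_, ?_, ?_⟩ <;> simp only [fi, abs_le, le_abs] <;>
    omega

/-- Crossings have probability at most `1 / 2` if the ratio is large. -/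
theorem cr_le : ∃ k : ℤ, 2 ≤ k ∧ ∀ (x : ℤ × ℤ) (r : ℤ), 1 ≤ r →
    μ.real {ω | Cr x r (k * r) 0 (Sb x (k * r) ω true)} ≤ 1 / 2 ∧
    μ.real {ω | Cr x r (k * r) 1 (Sb x (k * r) ω false)} ≤ 1 / 2 := by
  obtain ⟨C, α, hC, hα, h⟩ := arm_decay fair_mu
  obtain ⟨n, hn⟩ : ∃ n : ℕ, C * ((4 : ℝ) / n) ^ α ≤ 1 / 2 ∧ 4 ≤ n := by
    have h1 : Filter.Tendsto (fun n : ℕ => C * ((4 : ℝ) / n) ^ α) Filter.atTop (nhds 0) := by
      have h2 : Filter.Tendsto (fun n : ℕ => (4 : ℝ) / n) Filter.atTop (nhds 0) :=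
        tendsto_const_div_atTop_nhds_zero_nat 4
      have h3 := (h2.rpow_const (p := α) (Or.inr hα.le)).const_mul C
      rw [Real.zero_rpow hα.ne', mul_zero] at h3
      exact h3
    obtain ⟨n, h2, h3⟩ := ((h1.eventually (ge_mem_nhds (show (0 : ℝ) < 1 / 2 by norm_num))).and
      (Filter.eventually_ge_atTop 4)).exists
    exact ⟨n, h2, h3⟩
  have hn4 : (4 : ℝ) ≤ n := by exact_mod_cast hn.2
  refine ⟨n + 1, by omega, fun x r hr => ?_⟩
  have hr' : (1 : ℝ) ≤ r := by exact_mod_cast hr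
  have hb : C * (((2 * (r + 1) : ℤ) : ℝ) / ((((n : ℤ) + 1) * r - 1 : ℤ) : ℝ)) ^ α ≤ 1 / 2 := by
    refine le_trans ?_ hn.1
    refine mul_le_mul_of_nonneg_left (Real.rpow_le_rpow ?_ ?_ hα.le) hC.le
    · push_cast
      apply div_nonneg <;> nlinarith
    · push_cast
      rw [div_le_div_iff₀ (by nlinarith) (by linarith)]
      nlinarith
  have hle : 2 * (r + 1) ≤ ((n : ℤ) + 1) * r - 1 := by
    have : (4 : ℤ) ≤ n := by exact_mod_cast hn.2
    nlinarith
  obtain ⟨h1, h2⟩ := h (fi x) (2 * (r + 1)) (((n : ℤ) + 1) * r - 1) (by omega) hle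
  exact ⟨(measureReal_mono (fun ω hω => arm_of_cr hω)).trans (h1.trans hb),
    (measureReal_mono (fun ω hω => arm_of_cr' hω)).trans (h2.trans hb)⟩

/-- Number of the crossing clusters. -/
noncomputable def kap (x : ℤ × ℤ) (r R e : ℤ) (b : Bool) (ω : Cfg) : ℕ :=
  (CC x r R e (Sb x R ω b)).ncard

theorem Sb_congr {x : ℤ × ℤ} {R : ℤ} {ω ω' : Cfg} (h : ∀ v, nm (v - x) ≤ R → ω v = ω' v)
    (b : Bool) : Sb x R ω b = Sb x R ω' b := by
  unfold Sb
  refine Finset.filter_congr fun v hv => ?_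
  rw [h v (mem_bxx.1 hv)]

theorem kap_tail {x : ℤ × ℤ} {r R e : ℤ} {b : Bool}
    (h : μ.real {ω | Cr x r R e (Sb x R ω b)} ≤ 1 / 2) (j : ℕ) :
    μ {ω | j ≤ kap x r R e b ω} ≤ ENNReal.ofReal ((1 / 2) ^ j) := by
  rw [← ofReal_measureReal]
  refine ENNReal.ofReal_le_ofReal ?_
  calc μ.real {ω | j ≤ kap x r R e b ω}
      ≤ μ.real {ω | Dj (Cr x r R e) j (Sb x R ω b)} := by
        refine measureReal_mono ?_
        intro ω hω
        exact Dj_of_ncard hω
    _ ≤ (μ.real {ω | Cr x r R e (Sb x R ω b)}) ^ j := real_pow fair_mu (bxx x R) b Cr_mono j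
    _ ≤ (1 / 2) ^ j := pow_le_pow_left₀ measureReal_nonneg h j

theorem kap_meas {x : ℤ × ℤ} {r R e : ℤ} {b : Bool} (j : ℕ) :
    MeasurableSet {ω | j ≤ kap x r R e b ω} := by
  have : Dep (bxx x R) {ω | j ≤ kap x r R e b ω} := by
    intro o o' ho h
    have : Sb x R o b = Sb x R o' b := Sb_congr (fun v hv => ho v (mem_bxx.2 hv)) b
    simp only [Set.mem_ofPred_eq, kap] at h ⊢
    rwa [← this]
  exact this.meas

theorem kap_exp {x : ℤ × ℤ} {r R e : ℤ} {b : Bool}
    (h : μ.real {ω | Cr x r R e (Sb x R ω b)} ≤ 1 / 2) :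
    ∫⁻ ω, ENNReal.ofReal ((3 / 2) ^ kap x r R e b ω) ∂μ ≤ ENNReal.ofReal 4 := by
  calc ∫⁻ ω, ENNReal.ofReal ((3 / 2) ^ kap x r R e b ω) ∂μ
      ≤ ∫⁻ ω, ∑' j : ℕ, ENNReal.ofReal ((3 / 2) ^ j) *
          Set.indicator {ω | j ≤ kap x r R e b ω} 1 ω ∂μ := by
        refine lintegral_mono fun ω => ?_
        refine le_trans ?_ (ENNReal.le_tsum (kap x r R e b ω))
        rw [Set.indicator_of_mem (by simp)]
        simp
    _ = ∑' j : ℕ, ENNReal.ofReal ((3 / 2) ^ j) * μ {ω | j ≤ kap x r R e b ω} := by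
        rw [lintegral_tsum]
        · refine tsum_congr fun j => ?_
          rw [lintegral_const_mul _ (measurable_one.indicator (kap_meas j)),
            lintegral_indicator_one (kap_meas j)]
        · intro j
          exact ((measurable_one.indicator (kap_meas j)).const_mul _).aemeasurable
    _ ≤ ∑' j : ℕ, ENNReal.ofReal ((3 / 4) ^ j) := by
        refine ENNReal.tsum_le_tsum fun j => ?_
        calc _ ≤ ENNReal.ofReal ((3 / 2) ^ j) * ENNReal.ofReal ((1 / 2) ^ j) := by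
              gcongr
              exact kap_tail h j
          _ = _ := by
              rw [← ENNReal.ofReal_mul (by positivity), ← mul_pow]
              norm_num
    _ = ENNReal.ofReal 4 := by
        rw [← ENNReal.ofReal_tsum_of_nonneg (fun j => by positivity)
          (summable_geometric_of_lt_one (by norm_num) (by norm_num)),
          tsum_geometric_of_lt_one (by norm_num) (by norm_num)]
        norm_num

/-- **Block D3.** The number of the loops which cross an annulus is bounded by a local variable which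
has an exponential moment. -/
theorem crossL (hn : S_nx) (hj : S_jump) (hs : S_step) (ht : S_two) :
    ∃ (k : ℤ) (l C : ℝ), 2 ≤ k ∧ 0 < l ∧ ∀ (x : ℤ × ℤ) (r : ℤ), 1 ≤ r → ∃ Z : Cfg → ℕ,
      (∀ ω ω' : Cfg, (∀ v, nm (v - x) ≤ k * r → ω v = ω' v) → Z ω = Z ω') ∧
      (∀ ω, Set.ncard {ℓ | IsLoop ω ℓ ∧ (∃ v ∈ vs ℓ, nm (v - x) ≤ r) ∧
        ∃ v ∈ vs ℓ, k * r ≤ nm (v - x)} ≤ Z ω) ∧
      ∫⁻ ω, ENNReal.ofReal (Real.exp (l * (Z ω : ℝ))) ∂μ ≤ ENNReal.ofReal C := by
  obtain ⟨k, hk, h⟩ := cr_le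
  refine ⟨k, Real.log (3 / 2) / 2, 8, hk, by have := Real.log_pos (show (1 : ℝ) < 3 / 2 by norm_num); linarith, fun x r hr => ?_⟩
  obtain ⟨h1, h2⟩ := h x r hr
  refine ⟨fun ω => kap x r (k * r) 0 true ω + kap x r (k * r) 1 false ω, ?_, ?_, ?_⟩
  · intro ω ω' hω
    simp only [kap, Sb_congr hω]
  · intro ω
    exact loops_le hn hj hs ht x r (k * r) ω
  · calc ∫⁻ ω, ENNReal.ofReal (Real.exp (Real.log (3 / 2) / 2 *
          ((kap x r (k * r) 0 true ω + kap x r (k * r) 1 false ω : ℕ) : ℝ))) ∂μ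
        ≤ ∫⁻ ω, (ENNReal.ofReal ((3 / 2) ^ kap x r (k * r) 0 true ω) +
          ENNReal.ofReal ((3 / 2) ^ kap x r (k * r) 1 false ω)) ∂μ := by
          refine lintegral_mono fun ω => ?_
          show ENNReal.ofReal _ ≤ _
          rw [← ENNReal.ofReal_add (by positivity) (by positivity)]
          refine ENNReal.ofReal_le_ofReal ?_
          generalize kap x r (k * r) 0 true ω = a
          generalize kap x r (k * r) 1 false ω = b
          have e : ∀ n : ℕ, ((3 : ℝ) / 2) ^ n = Real.exp (Real.log (3 / 2) / 2 * n) ^ 2 := by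
            intro n
            rw [← Real.exp_nat_mul, ← Real.rpow_natCast, Real.rpow_def_of_pos (by norm_num)]
            congr 1
            push_cast
            ring
          rw [e a, e b]
          push_cast
          rw [mul_add, Real.exp_add]
          nlinarith [Real.exp_pos (Real.log (3 / 2) / 2 * (a : ℝ)),
            Real.exp_pos (Real.log (3 / 2) / 2 * (b : ℝ)),
            sq_nonneg (Real.exp (Real.log (3 / 2) / 2 * (a : ℝ)) -
              Real.exp (Real.log (3 / 2) / 2 * (b : ℝ)))]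
      _ = ∫⁻ ω, ENNReal.ofReal ((3 / 2) ^ kap x r (k * r) 0 true ω) ∂μ +
          ∫⁻ ω, ENNReal.ofReal ((3 / 2) ^ kap x r (k * r) 1 false ω) ∂μ := by
          rw [lintegral_add_left]
          have hm : Measurable (kap x r (k * r) 0 true) := by
            refine measurable_of_Ici fun j => kap_meas j
          exact ENNReal.measurable_ofReal.comp
            ((measurable_from_nat (f := fun n : ℕ => ((3 : ℝ) / 2) ^ n)).comp hm)
      _ ≤ ENNReal.ofReal 4 + ENNReal.ofReal 4 := add_le_add (kap_exp h1) (kap_exp h2)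
      _ = ENNReal.ofReal 8 := by rw [← ENNReal.ofReal_add (by norm_num) (by norm_num)]; norm_num

end Vale.Agent.P167.H166
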