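import Vale.Agent.P167.Top.PlaneW
import Vale.Agent.P167.FK.Defs
import Vale.Agent.P167.H166.Clu

/-!
# P167, GQ8: potentials of invariant sets of medial edges in a box
-/

namespace Vale.Agent.P167.H166

open Finset
open Vale.Agent.P145.FB (PStep PConn)

/-- A closed form on the rectangle `[a, b] × [c, d]` has a potential. -/
theorem exists_pot (hx vy : ℤ → ℤ → ℤ) (a c b d : ℤ)
    (hcl : ∀ x y, a ≤ x → x < b → c ≤ y → y < d → hx x y + vy (x + 1) y = vy x y + hx x (y + 1)) :
    ∃ w : ℤ → ℤ → ℤ, (∀ x y, a ≤ x → x < b → c ≤ y → y ≤ d → w (x + 1) y - w x y = hx x y) ∧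
      (∀ x y, a ≤ x → x ≤ b → c ≤ y → y < d → w x (y + 1) - w x y = vy x y) := by
  refine ⟨fun x y => ∑ i ∈ Finset.Ico a x, hx i c + ∑ j ∈ Finset.Ico c y, vy x j, ?_, ?_⟩
  · intro x y h1 h2 h3 h4
    have key : ∀ y : ℤ, c ≤ y → y ≤ d → ∑ j ∈ Finset.Ico c y, vy (x + 1) j -
        ∑ j ∈ Finset.Ico c y, vy x j = hx x y - hx x c := by
      intro y hy
      induction y, hy using Int.leInduction with
      | base => intro _; simp
      | succ n hn ih =>
        intro hd
        have h5 := ih (by omega)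
        have h6 : Finset.Ico c (n + 1) = insert n (Finset.Ico c n) := by
          ext z
          simp only [Finset.mem_Ico, Finset.mem_insert]
          omega
        have h7 : n ∉ Finset.Ico c n := by simp
        rw [h6, Finset.sum_insert h7, Finset.sum_insert h7]
        have h8 := hcl x n h1 h2 hn (by omega)
        linarith
    have h5 := key y h3 h4
    have h6 : Finset.Ico a (x + 1) = insert x (Finset.Ico a x) := by
      ext z
      simp only [Finset.mem_Ico, Finset.mem_insert]
      omega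
    have h7 : x ∉ Finset.Ico a x := by simp
    simp only
    rw [h6, Finset.sum_insert h7]
    linarith
  · intro x y h1 h2 h3 h4
    have h6 : Finset.Ico c (y + 1) = insert y (Finset.Ico c y) := by
      ext z
      simp only [Finset.mem_Ico, Finset.mem_insert]
      omega
    have h7 : y ∉ Finset.Ico c y := by simp
    simp only
    rw [h6, Finset.sum_insert h7]
    ring

/-- The set `A` of medial edges is invariant under `nx` at the squares of `B`. -/
def Inv (B : Set (ℤ × ℤ)) (ω : Cfg) (A : Set Ed) : Prop := ∀ e, hdv e ∈ B → (e ∈ A ↔ nx ω e ∈ A)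

/-- `w` is a potential of `A` in the box of radius `R`. -/
def Pot (R : ℤ) (A : Set Ed) (w : ℤ × ℤ → ℤ) : Prop :=
  ∀ e : Ed, (hdv e ∈ FK.Bq 0 R ∨ tlv e ∈ FK.Bq 0 R) →
    (e ∈ A → w (ls e) = w (rs e) + 1) ∧ (e ∉ A → w (ls e) = w (rs e))

theorem mem_Bq {x : ℤ × ℤ} {R : ℤ} {v : ℤ × ℤ} : v ∈ FK.Bq x R ↔
    x.1 - R ≤ v.1 ∧ v.1 < x.1 + R ∧ x.2 - R ≤ v.2 ∧ v.2 < x.2 + R := by
  simp only [FK.Bq, Finset.mem_product, Finset.mem_Ico]
  tauto

open Classical in
theorem kirchhoff {ω : Cfg} {A : Set Ed} {v : ℤ × ℤ} (h : ∀ e, hdv e = v → (e ∈ A ↔ nx ω e ∈ A)) :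
    (if (Sum.inl v : Ed) ∈ A then sg (Sum.inl v) else 0) +
      (if (Sum.inr v : Ed) ∈ A then sg (Sum.inr v) else 0) =
    (if (Sum.inl (v.1 - 1, v.2) : Ed) ∈ A then sg (Sum.inl (v.1 - 1, v.2)) else 0) +
      (if (Sum.inr (v.1, v.2 - 1) : Ed) ∈ A then sg (Sum.inr (v.1, v.2 - 1)) else 0) := by
  obtain ⟨x, y⟩ := v
  by_cases hp : Even (x + y)
  · have h3 : ¬ Even (x - 1 + y) := ev3.not.2 (not_not.2 hp)
    have h4 : ¬ Even (x + (y - 1)) := ev4.not.2 (not_not.2 hp)
    have a1 := h (Sum.inr (x, y)) (by simp [hdv, hp])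
    have a2 := h (Sum.inr (x, y - 1)) (by simp [hdv, h4])
    cases hb : ω (x, y) <;> simp [nx, hp, hb, h4] at a1 a2 <;>
      simp only [sg, hp, h3, h4, if_true, if_false, a1, a2] <;> split_ifs <;> simp
  · have h3 : Even (x - 1 + y) := ev3.2 hp
    have h4 : Even (x + (y - 1)) := ev4.2 hp
    have a1 := h (Sum.inl (x, y)) (by simp [hdv, hp])
    have a2 := h (Sum.inl (x - 1, y)) (by simp [hdv, h3])
    cases hb : ω (x, y) <;> simp [nx, hp, hb, h3] at a1 a2 <;>
      simp only [sg, hp, h3, h4, if_true, if_false, a1, a2] <;> split_ifs <;> simp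

/-- Existence of the potential. -/
theorem exists_Pot {R : ℤ} {ω : Cfg} {A : Set Ed} (h : Inv (FK.Bq 0 R : Set (ℤ × ℤ)) ω A) :
    ∃ w : ℤ × ℤ → ℤ, Pot R A w := by
  classical
  set u : Ed → ℤ := fun e => if e ∈ A then sg e else 0 with hu
  obtain ⟨w, h1, h2⟩ := exists_pot (fun x y => -u (Sum.inr (x, y - 1)))
    (fun x y => u (Sum.inl (x - 1, y))) (-R) (-R) R R (by
      intro x y a1 a2 a3 a4
      have := kirchhoff (ω := ω) (A := A) (v := (x, y)) (fun e he => h e (by
        rw [he, Finset.mem_coe, mem_Bq]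
        simp only [Prod.fst_zero, Prod.snd_zero]
        omega))
      simp only [hu]
      have e1 : x + 1 - 1 = x := by ring
      have e2 : y + 1 - 1 = y := by ring
      rw [e1, e2]
      linarith)
  refine ⟨fun s => w s.1 s.2, ?_⟩
  rintro (⟨x, y⟩ | ⟨x, y⟩) he
  · -- horizontal medial edge
    have hb : -R ≤ x + 1 ∧ x + 1 ≤ R ∧ -R ≤ y ∧ y < R := by
      simp only [hdv, tlv, mem_Bq, Prod.fst_zero, Prod.snd_zero] at he
      by_cases hp : Even (x + y) <;> simp only [hp, if_true, if_false] at he <;> omega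
    have h3 := h2 (x + 1) y hb.1 hb.2.1 hb.2.2.1 hb.2.2.2
    have e1 : x + 1 - 1 = x := by ring
    rw [e1] at h3
    simp only [hu] at h3
    by_cases hp : Even (x + y)
    · simp only [ls, rs, sg, hp, if_true] at h3 ⊢
      constructor
      · intro hA
        rw [if_pos hA] at h3
        linarith
      · intro hA
        rw [if_neg hA] at h3
        linarith
    · simp only [ls, rs, sg, hp, if_false] at h3 ⊢
      constructor
      · intro hA
        rw [if_pos hA] at h3
        linarith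
      · intro hA
        rw [if_neg hA] at h3
        linarith
  · have hb : -R ≤ x ∧ x < R ∧ -R ≤ y + 1 ∧ y + 1 ≤ R := by
      simp only [hdv, tlv, mem_Bq, Prod.fst_zero, Prod.snd_zero] at he
      by_cases hp : Even (x + y) <;> simp only [hp, if_true, if_false] at he <;> omega
    have h3 := h1 x (y + 1) hb.1 hb.2.1 hb.2.2.1 hb.2.2.2
    have e1 : y + 1 - 1 = y := by ring
    rw [e1] at h3
    simp only [hu] at h3
    by_cases hp : Even (x + y)
    · simp only [ls, rs, sg, hp, if_true] at h3 ⊢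
      constructor
      · intro hA
        rw [if_pos hA] at h3
        linarith
      · intro hA
        rw [if_neg hA] at h3
        linarith
    · simp only [ls, rs, sg, hp, if_false] at h3 ⊢
      constructor
      · intro hA
        rw [if_pos hA] at h3
        linarith
      · intro hA
        rw [if_neg hA] at h3
        linarith

/-- The potential is constant along the set. -/
theorem Pot.nx {R : ℤ} {ω : Cfg} {A : Set Ed} {w : ℤ × ℤ → ℤ} (hw : Pot R A w)
    (h : Inv (FK.Bq 0 R : Set (ℤ × ℤ)) ω A) {e : Ed} (he : hdv e ∈ FK.Bq 0 R) :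
    w (ls (nx ω e)) = w (ls e) ∧ (e ∈ A → w (rs (nx ω e)) = w (rs e)) ∧
    w (rs (nx ω e)) = w (rs e) := by
  have h1 := hw e (Or.inl he)
  have h2 := hw (Vale.Agent.P167.nx ω e) (Or.inr (by rw [tlv_nx]; exact he))
  have h3 := h e (Finset.mem_coe.2 he)
  cases hb : ω (hdv e) with
  | true =>
    have h4 := rs_nx hb
    rw [h4] at h2 ⊢
    by_cases hA : e ∈ A
    · have := h1.1 hA
      have := h2.1 (h3.1 hA)
      exact ⟨by linarith, fun _ => rfl, rfl⟩
    · have := h1.2 hA
      have := h2.2 (fun hn => hA (h3.2 hn))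
      exact ⟨by linarith, fun _ => rfl, rfl⟩
  | false =>
    have h4 := ls_nx hb
    rw [h4] at h2 ⊢
    by_cases hA : e ∈ A
    · have := h1.1 hA
      have := h2.1 (h3.1 hA)
      exact ⟨rfl, fun _ => by linarith, by linarith⟩
    · have := h1.2 hA
      have := h2.2 (fun hn => hA (h3.2 hn))
      exact ⟨rfl, fun _ => by linarith, by linarith⟩

end Vale.Agent.P167.H166
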